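import Vale.Agent.P013.Two
import Vale.Agent.P031.Mert

namespace Vale.Agent.P013

open Finset Real

theorem blk : ∃ D : ℝ, 0 ≤ D ∧ ∀ (n : ℕ) (x y : ℝ), 1 < x → x ≤ y →
    ∑ p ∈ n.primeFactors.filter (fun p : ℕ => x < p ∧ (p : ℝ) ≤ y), 1 / (p : ℝ) ≤
      (log y - log x + D) / log x := by
  obtain ⟨C, hC⟩ := P031.MertA.first
  have hC0 : 0 ≤ C := (abs_nonneg _).trans (hC 1 le_rfl)
  refine ⟨2 * C + 1, by positivity, fun n x y hx hxy => ?_⟩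
  have hl : 0 < log x := log_pos hx
  have hX : 1 ≤ ⌊x⌋₊ := Nat.le_floor (by simpa using hx.le)
  have hXY : ⌊x⌋₊ ≤ ⌊y⌋₊ := Nat.floor_le_floor hxy
  have hX' : (1 : ℝ) ≤ ⌊x⌋₊ := by exact_mod_cast hX
  have hY' : (1 : ℝ) ≤ ⌊y⌋₊ := by exact_mod_cast hX.trans hXY
  have hsub : Nat.primesLE ⌊x⌋₊ ⊆ Nat.primesLE ⌊y⌋₊ := fun p hp =>
    Nat.mem_primesLE.2 ⟨(Nat.mem_primesLE.1 hp).1.trans hXY, (Nat.mem_primesLE.1 hp).2⟩
  rw [le_div_iff₀ hl, sum_mul]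
  have h1 : ∑ p ∈ n.primeFactors.filter (fun p : ℕ => x < p ∧ (p : ℝ) ≤ y), 1 / (p : ℝ) * log x ≤
      ∑ p ∈ Nat.primesLE ⌊y⌋₊ \ Nat.primesLE ⌊x⌋₊, log (p : ℝ) / p := by
    refine le_trans (sum_le_sum (g := fun p : ℕ => log (p : ℝ) / p) fun p hp => ?_)
      (sum_le_sum_of_subset_of_nonneg (fun p hp => ?_) fun p _ _ => by positivity)
    · have h := (mem_filter.1 hp).2.1
      rw [one_div_mul_eq_div]
      exact div_le_div_of_nonneg_right (log_le_log (by linarith) h.le) (by positivity)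
    · obtain ⟨h1, h2, h3⟩ := mem_filter.1 hp
      refine mem_sdiff.2 ⟨Nat.mem_primesLE.2
        ⟨Nat.le_floor h3, Nat.prime_of_mem_primeFactors h1⟩, fun h => ?_⟩
      exact absurd ((Nat.floor_lt (by linarith)).2 h2) (not_lt.2 (Nat.mem_primesLE.1 h).1)
  rw [sum_sdiff_eq_sub hsub] at h1
  have h2 := (abs_le.1 (hC _ hX)).1
  have h3 := (abs_le.1 (hC _ (hX.trans hXY))).2
  have h4 : log (⌊y⌋₊ : ℝ) ≤ log y := log_le_log (by linarith) (Nat.floor_le (by linarith))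
  have h5 : log x ≤ log (2 * (⌊x⌋₊ : ℝ)) :=
    log_le_log (by linarith) (by linarith [Nat.lt_floor_add_one x])
  rw [log_mul (by norm_num) (by linarith)] at h5
  have h6 : log 2 ≤ 1 := by linarith [log_le_sub_one_of_pos (by norm_num : (0 : ℝ) < 2)]
  linarith

theorem top (M : ℝ) : ∃ K : ℝ, ∀ n k : ℕ, K ≤ k →
    ∑ p ∈ n.primeFactors.filter (fun p : ℕ => (k : ℝ) ^ (0.49 : ℝ) < p ∧ (p : ℝ) ≤ M * k),
      1 / (p : ℝ) ≤ 0.85 := by
  obtain ⟨D, hD, h⟩ := blk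
  refine ⟨max (exp (300 * D + 1)) (|M| ^ (100 : ℕ)), fun n k hk => ?_⟩
  have h0 : exp (300 * D + 1) ≤ k := le_of_max_le_left hk
  have hk0 : (0 : ℝ) < k := (exp_pos _).trans_le h0
  have hL : 300 * D + 1 ≤ log k := (le_log_iff_exp_le hk0).2 h0
  have hk1 : (1 : ℝ) < k := by linarith [add_one_le_exp (300 * D + 1)]
  have hM : M * k ≤ (k : ℝ) ^ (1.01 : ℝ) := by
    have e : (k : ℝ) ^ (1.01 : ℝ) = (k : ℝ) ^ ((100 : ℕ) : ℝ)⁻¹ * k := by
      rw [← rpow_add_one hk0.ne']; norm_num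
    have : |M| ≤ (k : ℝ) ^ ((100 : ℕ) : ℝ)⁻¹ := by
      rw [← pow_rpow_inv_natCast (abs_nonneg M) (n := 100) (by norm_num)]
      exact rpow_le_rpow (by positivity) (le_of_max_le_right hk) (by positivity)
    rw [e]
    exact mul_le_mul_of_nonneg_right ((le_abs_self M).trans this) hk0.le
  have hb : ∀ a b c : ℝ, 0.49 ≤ a → a ≤ b → b - a + 1 / 300 ≤ c * a →
      ∑ p ∈ n.primeFactors.filter (fun p : ℕ => (k : ℝ) ^ a < p ∧ (p : ℝ) ≤ (k : ℝ) ^ b),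
        1 / (p : ℝ) ≤ c := by
    intro a b c ha hab hc
    refine (h n _ _ (one_lt_rpow hk1 (by linarith))
      (rpow_le_rpow_of_exponent_le hk1.le hab)).trans ?_
    rw [log_rpow hk0, log_rpow hk0, div_le_iff₀ (mul_pos (by linarith) (by linarith))]
    nlinarith [mul_le_mul_of_nonneg_right hc (by linarith : 0 ≤ log k)]
  have b1 := hb 0.49 0.6 0.24 (by norm_num) (by norm_num) (by norm_num)
  have b2 := hb 0.6 0.75 0.256 (by norm_num) (by norm_num) (by norm_num)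
  have b3 := hb 0.75 1.01 0.352 (by norm_num) (by norm_num) (by norm_num)
  refine le_trans ?_ ((add_le_add (add_le_add b1 b2) b3).trans (by norm_num))
  simp only [sum_filter, ← sum_add_distrib]
  refine sum_le_sum fun p _ => ?_
  have hp : (0 : ℝ) ≤ 1 / (p : ℝ) := by positivity
  by_cases g0 : (k : ℝ) ^ (0.49 : ℝ) < p ∧ (p : ℝ) ≤ M * k
  · rw [if_pos g0]
    by_cases g1 : (p : ℝ) ≤ (k : ℝ) ^ (0.6 : ℝ)
    · rw [if_pos ⟨g0.1, g1⟩]
      split_ifs <;> linarith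
    · by_cases g2 : (p : ℝ) ≤ (k : ℝ) ^ (0.75 : ℝ)
      · rw [if_pos (⟨not_le.1 g1, g2⟩ : _ ∧ _)]
        split_ifs <;> linarith
      · rw [if_pos (⟨not_le.1 g2, g0.2.trans hM⟩ : _ ∧ _)]
        split_ifs <;> linarith
  · rw [if_neg g0]
    split_ifs <;> linarith

end Vale.Agent.P013
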