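import Vale.Agent.P013.Defs
import Vale.Agent.Lib.Sieve.Count

namespace Vale.Agent.P013

open Finset Real Vale.Agent.Sieve

theorem jac_le {n T : ℕ} (hn : 1 ≤ n) (hT : 0 < T)
    (h : ∀ c : ℕ, ∃ i < T, ∀ p ∈ n.primeFactors, ¬ p ∣ c + i) : jac n ≤ T := by
  apply Nat.sInf_le
  refine ⟨hT, fun a => ?_⟩
  have hn0 : (n : ℤ) ≠ 0 := by exact_mod_cast (by omega : n ≠ 0)
  obtain ⟨c, hc⟩ := Int.eq_ofNat_of_zero_le (Int.emod_nonneg a hn0)
  obtain ⟨i, hi, hp⟩ := h c
  refine ⟨i, hi, ?_⟩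
  have h1 : Nat.Coprime (c + i) n := by
    apply Nat.coprime_of_dvd
    intro p pp h1 h2
    exact hp p (Nat.mem_primeFactors.2 ⟨pp, h2, by omega⟩) h1
  have h2 : IsCoprime ((c + i : ℕ) : ℤ) (n : ℤ) := Nat.isCoprime_iff_coprime.2 h1
  have e : a + i = ((c + i : ℕ) : ℤ) + n * (a / n) := by
    have := Int.emod_add_mul_ediv a n
    push_cast
    rw [← hc]
    linarith
  rw [e]
  exact h2.add_mul_left_left _

theorem prod_Icc_one_sub (Y : ℕ) (hY : 1 ≤ Y) :
    ∏ m ∈ Icc 2 Y, (1 - 1 / (m : ℝ)) = 1 / Y := by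
  induction Y, hY using Nat.le_induction with
  | base => simp
  | succ Y hY ih =>
    rw [prod_Icc_succ_top (by omega), ih]
    have : (0 : ℝ) < Y := by exact_mod_cast hY
    push_cast
    field_simp
    ring

variable {ι : Type} [Fintype ι] [DecidableEq ι]

theorem inv_le_prod (pr : ι → ℕ) (hp : ∀ i, (pr i).Prime) (hinj : Function.Injective pr)
    {Y : ℕ} (hY : 1 ≤ Y) : 1 / (Y : ℝ) ≤ ∏ i ∈ upTo pr Y, (1 - 1 / (pr i : ℝ)) := by
  rw [← prod_Icc_one_sub Y hY,
    ← prod_image (s := upTo pr Y) (g := pr) (f := fun p : ℕ => (1 - 1 / (p : ℝ))) hinj.injOn]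
  apply prod_le_prod_of_subset_of_le_one
  · intro p hp'
    obtain ⟨i, hi, rfl⟩ := mem_image.1 hp'
    exact mem_Icc.2 ⟨(hp i).two_le, mem_upTo.1 hi⟩
  · intro p hp'
    have h2 : (2 : ℝ) ≤ p := by exact_mod_cast (mem_Icc.1 hp').1
    have : 1 / (p : ℝ) ≤ 1 := by rw [div_le_one (by linarith)]; linarith
    linarith
  · intro p _ _
    have := inv_prime_nonneg p
    linarith

theorem E_om (pr : ι → ℕ) (hp : ∀ i, (pr i).Prime) (S : Finset ι) :
    (primeModel pr hp).E (fun x => (om S x : ℝ)) = ∑ i ∈ S, 1 / (pr i : ℝ) := by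
  rw [FP.E_congr _ (om_cast S), FP.E_sum]
  refine sum_congr rfl fun i _ => ?_
  have := E_atom pr hp {i}
  simpa using this

theorem core (η : ℝ) (hη : 0 < η) : ∃ s : ℕ, ∀ (ι : Type) [Fintype ι] [DecidableEq ι]
    (pr : ι → ℕ), (∀ i, (pr i).Prime) → Function.Injective pr → ∀ Y T c : ℕ, 1 ≤ Y →
    ∑ i ∈ (upTo pr Y)ᶜ, 1 / (pr i : ℝ) ≤ 1 - 2 * η →
    (Y : ℝ) ^ s * (1 + Fintype.card ι) < η * T → ∃ i < T, ∀ j, ¬ pr j ∣ c + i := by
  obtain ⟨r, hr⟩ := pow_unbounded_of_one_lt (2 * KK 2 / η) (by norm_num : (1 : ℝ) < 4)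
  refine ⟨4 * r + 5, fun ι _ _ pr hp hinj Y T c hY hσ hT => ?_⟩
  obtain ⟨β, b0, bdep, bone, bPN, -, bom⟩ := exists_BH pr hp hinj Y r hY
  have hY' : (0 : ℝ) < Y := by exact_mod_cast hY
  have hPN : PN (atoms fun i (x : ι → Bool) => x i) (fun x => β x * (1 - om univ x))
      ((Y : ℝ) ^ (4 * r + 4) * (1 + ((univ : Finset ι).card : ℝ))) :=
    PN.mul (mul_mem_atoms fun i (x : ι → Bool) => x i) (by positivity) bPN
      ((PN.atom (one_mem_atoms fun i (x : ι → Bool) => x i)).sub (PN_om univ))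
  have ht := sieve_transfer pr hp hinj T c 1 (fun i => (hp i).not_dvd_one) hPN
  have hsplit : ∀ x, (om univ x : ℝ) = om (upTo pr Y) x + om (upTo pr Y)ᶜ x := by
    intro x
    rw [← union_compl (upTo pr Y), om_union disjoint_compl_right]
    simp
  have hind : (primeModel pr hp).E (fun x => β x * om (upTo pr Y)ᶜ x) =
      (primeModel pr hp).E β * ∑ i ∈ (upTo pr Y)ᶜ, 1 / (pr i : ℝ) := by
    rw [← E_om pr hp]
    exact FP.E_pi_indep _ (upTo pr Y) β (fun x => (om (upTo pr Y)ᶜ x : ℝ))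
      (fun x y h => bdep x y fun i hi => h i (mem_upTo.2 hi))
      (fun x y h => by rw [om_congr _ fun i hi => h i (mem_compl.1 hi)])
  have h1 : (primeModel pr hp).E (fun x => β x * (1 - om univ x)) =
      (primeModel pr hp).E β - (primeModel pr hp).E (fun x => β x * om (upTo pr Y) x) -
        (primeModel pr hp).E (fun x => β x * om (upTo pr Y)ᶜ x) := by
    rw [← FP.E_sub, ← FP.E_sub]
    exact FP.E_congr _ fun x => by rw [hsplit]; ring
  have h2 : 1 / (Y : ℝ) ≤ (primeModel pr hp).E β := by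
    refine (inv_le_prod pr hp hinj hY).trans ?_
    rw [← E_zero_pow_om pr hp]
    refine FP.E_mono _ fun x => ?_
    rcases Nat.eq_zero_or_pos (om (upTo pr Y) x) with h | h
    · rw [h, pow_zero, bone x]
      intro i hi
      by_contra hx
      have := om_pos (upTo pr Y) (mem_upTo.2 hi) (x := x) (by simpa using hx)
      omega
    · rw [zero_pow h.ne']
      exact b0 x
  have h4 : 2 * KK 2 / 4 ^ r ≤ η := by
    rw [div_lt_iff₀ hη] at hr
    rw [div_le_iff₀ (by positivity)]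
    linarith
  have h5 : 0 ≤ (primeModel pr hp).E β := FP.E_nonneg _ b0
  have h6 := mul_le_mul_of_nonneg_right h4 h5
  have h7 := mul_le_mul_of_nonneg_left hσ h5
  have h8 := mul_le_mul_of_nonneg_left h2 hη.le
  have hE : η * (1 / Y) ≤ (primeModel pr hp).E (fun x => β x * (1 - om univ x)) := by
    rw [h1, hind]
    linarith
  by_contra hcon
  simp only [not_exists, not_and, not_forall, not_not] at hcon
  have hsum : ∑ n ∈ range T,
      (fun x => β x * (1 - om univ x)) (fun i => decide (pr i ∣ c + 1 * n)) ≤ 0 := by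
    refine sum_nonpos fun n hn => ?_
    obtain ⟨j, hj⟩ := hcon n (mem_range.1 hn)
    have h1 := om_pos univ (x := fun i => decide (pr i ∣ c + 1 * n)) (mem_univ j)
      (decide_eq_true (by rwa [one_mul]))
    have h2 : (1 : ℝ) ≤ om univ (fun i => decide (pr i ∣ c + 1 * n)) := by exact_mod_cast h1
    exact mul_nonpos_of_nonneg_of_nonpos (b0 _) (by linarith)
  have h9 := mul_le_mul_of_nonneg_left hE (Nat.cast_nonneg (α := ℝ) T)
  have h10 := (abs_le.1 ht).1
  have h11 : (T : ℝ) * (η * (1 / Y)) ≤ (Y : ℝ) ^ (4 * r + 4) * (1 + Fintype.card ι) := by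
    rw [← card_univ]
    linarith
  rw [← mul_assoc, mul_one_div, div_le_iff₀ hY'] at h11
  rw [show 4 * r + 5 = (4 * r + 4) + 1 by ring, pow_succ] at hT
  linarith

theorem main (η : ℝ) (hη : 0 < η) : ∃ s : ℕ, ∀ n Y T : ℕ, 1 ≤ n → 1 ≤ Y →
    ∑ p ∈ n.primeFactors.filter (fun p => Y < p), 1 / (p : ℝ) ≤ 1 - 2 * η →
    (Y : ℝ) ^ s * (1 + n.primeFactors.card) < η * T → jac n ≤ T := by
  obtain ⟨s, hs⟩ := core η hη
  refine ⟨s, fun n Y T hn hY hσ hT => ?_⟩
  have hT0 : 0 < T := by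
    rcases Nat.eq_zero_or_pos T with h | h
    · rw [h, Nat.cast_zero, mul_zero] at hT
      exact absurd hT (not_lt.2 (by positivity))
    · exact h
  refine jac_le hn hT0 fun c => ?_
  obtain ⟨i, hi, h⟩ := hs n.primeFactors Subtype.val
    (fun i => Nat.prime_of_mem_primeFactors i.2) Subtype.val_injective Y T c hY
    (by
      refine le_trans (le_of_eq ?_) hσ
      rw [sum_filter, ← sum_coe_sort n.primeFactors]
      have : (upTo (Subtype.val : n.primeFactors → ℕ) Y)ᶜ = univ.filter (fun i => Y < i.1) := by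
        ext i
        simp
      rw [this, sum_filter])
    (by simpa using hT)
  exact ⟨i, hi, fun p hp => h ⟨p, hp⟩⟩

end Vale.Agent.P013
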