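import Mathlib

namespace Vale.Agent.P013

/-- Jacobsthal's function: the least positive `m` such that every set of `m` consecutive
integers contains an integer coprime to `n`. -/
noncomputable def jac (n : ℕ) : ℕ :=
  sInf {m : ℕ | 0 < m ∧ ∀ a : ℤ, ∃ i : ℕ, i < m ∧ IsCoprime (a + i) (n : ℤ)}

end Vale.Agent.P013
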