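import Vale.Agent.P013.Core

namespace Vale.Agent.P013

open Finset Real Vale.Agent.Sieve

variable {ι : Type} [Fintype ι] [DecidableEq ι]

theorem E_indep (pr : ι → ℕ) (hp : ∀ i, (pr i).Prime) {S R : Finset ι} (hd : Disjoint S R)
    (f g : ℕ → ℝ) :
    (primeModel pr hp).E (fun x => f (om S x) * g (om R x)) =
      (primeModel pr hp).E (fun x => f (om S x)) * (primeModel pr hp).E (fun x => g (om R x)) :=
  FP.E_pi_indep _ S (fun x => f (om S x)) (fun x => g (om R x))
    (fun x y h => by rw [om_congr _ h])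
    (fun x y h => by rw [om_congr _ fun i hi => h i (fun hs => disjoint_left.1 hd hs hi)])

theorem om_single (a : ι) (x : ι → Bool) : (om {a} x : ℝ) * om {a} x = om {a} x := by
  rw [om_cast, sum_singleton]
  split_ifs <;> simp

theorem E_fact (pr : ι → ℕ) (hp : ∀ i, (pr i).Prime) (S : Finset ι) :
    (primeModel pr hp).E (fun x => (om S x : ℝ) * (om S x - 1)) ≤ (∑ i ∈ S, 1 / (pr i : ℝ)) ^ 2 ∧
    (primeModel pr hp).E (fun x => (om S x : ℝ) * (om S x - 1) * (om S x - 2)) ≤
      (∑ i ∈ S, 1 / (pr i : ℝ)) ^ 3 := by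
  induction S using Finset.induction_on with
  | empty => simp [om, FP.E_const]
  | insert a S ha ih =>
    have hd : Disjoint S {a} := disjoint_singleton_right.2 ha
    have ho : ∀ x, (om (insert a S) x : ℝ) = om S x + om {a} x := by
      intro x
      rw [insert_eq, union_comm, om_union hd]
      simp
    have hq : (primeModel pr hp).E (fun x => (om {a} x : ℝ)) = 1 / (pr a : ℝ) := by
      rw [E_om, sum_singleton]
    have h1 := E_indep pr hp hd (fun m => (m : ℝ)) (fun m => (m : ℝ))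
    have h2 := E_indep pr hp hd (fun m => (m : ℝ) * (m - 1)) (fun m => (m : ℝ))
    rw [hq, E_om] at h1
    rw [hq] at h2
    have q0 := inv_prime_nonneg (pr a)
    have s0 : 0 ≤ ∑ i ∈ S, 1 / (pr i : ℝ) := sum_nonneg fun i _ => inv_prime_nonneg _
    rw [sum_insert ha]
    constructor
    · rw [FP.E_congr _ (g := fun x => (om S x : ℝ) * (om S x - 1) + 2 * (om S x * om {a} x))
        (fun x => by rw [ho]; linear_combination om_single a x), FP.E_add, FP.E_const_mul, h1]
      nlinarith [ih.1]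
    · rw [FP.E_congr _ (g := fun x => (om S x : ℝ) * (om S x - 1) * (om S x - 2) +
          3 * (om S x * (om S x - 1) * om {a} x))
        (fun x => by
          rw [ho]
          linear_combination (3 * (om S x : ℝ) + om {a} x - 2) * om_single a x),
        FP.E_add, FP.E_const_mul, h2]
      have h3 := mul_le_mul_of_nonneg_right ih.1 q0
      nlinarith [ih.2, mul_nonneg s0 (mul_nonneg q0 q0), mul_nonneg q0 (mul_nonneg q0 q0)]

theorem quad_nonneg (m : ℕ) : (0 : ℝ) ≤ (1 - m) * (1 - 1 / 2 * m) := by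
  rcases Nat.lt_or_ge m 2 with h | h
  · interval_cases m <;> norm_num
  · have : (2 : ℝ) ≤ m := by exact_mod_cast h
    nlinarith

theorem quad_ge (m : ℕ) : (1 : ℝ) - m ≤ (1 - m) * (1 - 1 / 2 * m) := by
  rcases Nat.eq_zero_or_pos m with h | h
  · simp [h]
  · have : (1 : ℝ) ≤ m := by exact_mod_cast h
    nlinarith

theorem core2 (η : ℝ) (hη : 0 < η) : ∃ s : ℕ, ∀ (ι : Type) [Fintype ι] [DecidableEq ι]
    (pr : ι → ℕ), (∀ i, (pr i).Prime) → Function.Injective pr → ∀ Y Z T c : ℕ, 1 ≤ Y → Y ≤ Z →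
    ∀ u v : ℝ, ∑ i ∈ between pr Y Z, 1 / (pr i : ℝ) ≤ u → ∑ i ∈ (upTo pr Z)ᶜ, 1 / (pr i : ℝ) ≤ v →
    v + η ≤ 1 → η ≤ (1 - u) * (1 - v - η) - u ^ 3 / 2 →
    (Y : ℝ) ^ s * Z ^ 2 * (1 + Fintype.card ι) < η * T → ∃ i < T, ∀ j, ¬ pr j ∣ c + i := by
  obtain ⟨r, hr⟩ := pow_unbounded_of_one_lt (2 * KK 2 / η) (by norm_num : (1 : ℝ) < 4)
  refine ⟨4 * r + 5, fun ι _ _ pr hp hinj Y Z T c hY hYZ u v hu hv hv1 hσ hT => ?_⟩
  obtain ⟨β, b0, bdep, bone, bPN, -, bom⟩ := exists_BH pr hp hinj Y r hY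
  have hY' : (0 : ℝ) < Y := by exact_mod_cast hY
  set S := between pr Y Z with hS
  set R := (upTo pr Z)ᶜ with hR
  set P := primeModel pr hp with hP
  let A : ℕ → ℝ := fun m => (1 - m) * (1 - 1 / 2 * m)
  have hcard : 1 + (S.card : ℝ) ≤ Z := by
    have h1 := card_upTo_le pr hp hinj Z
    have h2 : S.card ≤ (upTo pr Z).card := card_le_card fun i hi => mem_upTo.2 (mem_between.1 hi).2
    exact_mod_cast (by omega : 1 + S.card ≤ Z)
  have one := PN.atom (one_mem_atoms fun i (x : ι → Bool) => x i)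
  have hA1 : PN (atoms fun i (x : ι → Bool) => x i) (fun x => 1 - (om S x : ℝ)) Z :=
    (one.sub (PN_om S)).mono hcard
  have hA2 : PN (atoms fun i (x : ι → Bool) => x i) (fun x => 1 - 1 / 2 * (om S x : ℝ)) Z :=
    (one.sub ((PN_om S).const_mul (1 / 2))).mono (by
      rw [abs_of_pos (by norm_num)]
      have : (0 : ℝ) ≤ S.card := by positivity
      linarith)
  have mm := mul_mem_atoms fun i (x : ι → Bool) => x i
  have hPN : PN (atoms fun i (x : ι → Bool) => x i) (fun x => β x * A (om S x) * (1 - om univ x))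
      ((Y : ℝ) ^ (4 * r + 4) * (Z * Z) * (1 + ((univ : Finset ι).card : ℝ))) :=
    PN.mul mm (by positivity) (PN.mul mm (by positivity) bPN (PN.mul mm (by positivity) hA1 hA2))
      (one.sub (PN_om univ))
  have ht := sieve_transfer pr hp hinj T c 1 (fun i => (hp i).not_dvd_one) hPN
  have hsplit : ∀ x, (om univ x : ℝ) = om S x + om (upTo pr Y) x + om R x := by
    intro x
    rw [← union_compl (upTo pr Z), om_union disjoint_compl_right, upTo_eq_union pr hYZ,
      om_union (disjoint_between_upTo pr Y Z), ← upTo_eq_union pr hYZ]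
    simp [hS, hR]
  have hSR : Disjoint S R := disjoint_left.2 fun i h1 h2 =>
    mem_compl.1 h2 (mem_upTo.2 (mem_between.1 h1).2)
  have nS : ∀ i ∈ S, i ∉ upTo pr Y := fun i h1 h2 =>
    absurd (mem_upTo.1 h2) (not_le.2 (mem_between.1 h1).1)
  have nR : ∀ i ∈ R, i ∉ upTo pr Y := fun i h1 h2 =>
    mem_compl.1 h1 (mem_upTo.2 ((mem_upTo.1 h2).trans hYZ))
  have i1 : P.E (fun x => β x * (A (om S x) * (1 - om R x) - A (om S x) * om S x)) =
      P.E β * P.E (fun x => A (om S x) * (1 - om R x) - A (om S x) * om S x) :=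
    FP.E_pi_indep _ (upTo pr Y) β _ (fun x y h => bdep x y fun i hi => h i (mem_upTo.2 hi))
      (fun x y h => by
        rw [om_congr S fun i hi => h i (nS i hi), om_congr R fun i hi => h i (nR i hi)])
  have i2 : P.E (fun x => (β x * om (upTo pr Y) x) * A (om S x)) =
      P.E (fun x => β x * om (upTo pr Y) x) * P.E (fun x => A (om S x)) :=
    FP.E_pi_indep _ (upTo pr Y) _ _
      (fun x y h => by rw [bdep x y fun i hi => h i (mem_upTo.2 hi), om_congr _ h])
      (fun x y h => by rw [om_congr S fun i hi => h i (nS i hi)])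
  have i3 := E_indep pr hp hSR A (fun m => 1 - (m : ℝ))
  rw [FP.E_sub, FP.E_const, E_om] at i3
  have i4 : P.E (fun x => A (om S x) * om S x) ≤ u ^ 3 / 2 := by
    rw [FP.E_congr _ (g := fun x => 1 / 2 * ((om S x : ℝ) * (om S x - 1) * (om S x - 2)))
      (fun x => by simp only [A]; ring), FP.E_const_mul]
    have h1 := (E_fact pr hp S).2
    have h2 := pow_le_pow_left₀ (sum_nonneg fun i _ => inv_prime_nonneg _) hu 3
    linarith
  have i5 : 1 - u ≤ P.E (fun x => A (om S x)) := by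
    have h1 := P.E_mono (f := fun x => 1 - (om S x : ℝ)) (fun x => quad_ge (om S x))
    rw [FP.E_sub, FP.E_const, E_om] at h1
    linarith
  have i6 : 0 ≤ P.E (fun x => A (om S x)) := FP.E_nonneg _ fun x => quad_nonneg _
  have h1 : P.E (fun x => β x * A (om S x) * (1 - om univ x)) =
      P.E (fun x => β x * (A (om S x) * (1 - om R x) - A (om S x) * om S x)) -
        P.E (fun x => (β x * om (upTo pr Y) x) * A (om S x)) := by
    rw [← FP.E_sub]
    exact FP.E_congr _ fun x => by rw [hsplit]; ring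
  have h2 : 1 / (Y : ℝ) ≤ P.E β := by
    refine (inv_le_prod pr hp hinj hY).trans ?_
    rw [← E_zero_pow_om pr hp]
    refine FP.E_mono _ fun x => ?_
    rcases Nat.eq_zero_or_pos (om (upTo pr Y) x) with h | h
    · rw [h, pow_zero, bone x]
      intro i hi
      by_contra hx
      have := om_pos (upTo pr Y) (mem_upTo.2 hi) (x := x) (by simpa using hx)
      omega
    · rw [zero_pow h.ne']
      exact b0 x
  have h4 : 2 * KK 2 / 4 ^ r ≤ η := by
    rw [div_lt_iff₀ hη] at hr
    rw [div_le_iff₀ (by positivity)]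
    linarith
  have h5 : 0 ≤ P.E β := FP.E_nonneg _ b0
  have h6 := mul_le_mul_of_nonneg_right (bom.trans (mul_le_mul_of_nonneg_right h4 h5)) i6
  have h7 : η ≤ P.E (fun x => A (om S x)) * (1 - ∑ i ∈ R, 1 / (pr i : ℝ)) -
      P.E (fun x => A (om S x) * om S x) - η * P.E (fun x => A (om S x)) := by
    have a1 := mul_le_mul_of_nonneg_right i5 (by linarith : 0 ≤ 1 - v - η)
    have a2 := mul_le_mul_of_nonneg_left hv i6
    linarith
  have h8 := mul_le_mul_of_nonneg_left h2 hη.le
  have h7' := mul_le_mul_of_nonneg_left h7 h5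
  have hE : η * (1 / Y) ≤ P.E (fun x => β x * A (om S x) * (1 - om univ x)) := by
    rw [h1, i1, i2, FP.E_sub, i3]
    linarith
  by_contra hcon
  simp only [not_exists, not_and, not_forall, not_not] at hcon
  have hsum : ∑ n ∈ range T, (fun x => β x * A (om S x) * (1 - om univ x))
      (fun i => decide (pr i ∣ c + 1 * n)) ≤ 0 := by
    refine sum_nonpos fun n hn => ?_
    obtain ⟨j, hj⟩ := hcon n (mem_range.1 hn)
    have h1 := om_pos univ (x := fun i => decide (pr i ∣ c + 1 * n)) (mem_univ j)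
      (decide_eq_true (by rwa [one_mul]))
    have h2 : (1 : ℝ) ≤ om univ (fun i => decide (pr i ∣ c + 1 * n)) := by exact_mod_cast h1
    exact mul_nonpos_of_nonneg_of_nonpos (mul_nonneg (b0 _) (quad_nonneg _)) (by linarith)
  have h9 := mul_le_mul_of_nonneg_left hE (Nat.cast_nonneg (α := ℝ) T)
  have h10 := (abs_le.1 ht).1
  have h11 : (T : ℝ) * (η * (1 / Y)) ≤
      (Y : ℝ) ^ (4 * r + 4) * (Z * Z) * (1 + Fintype.card ι) := by
    rw [← card_univ]
    linarith
  rw [← mul_assoc, mul_one_div, div_le_iff₀ hY'] at h11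
  rw [show 4 * r + 5 = (4 * r + 4) + 1 by ring, pow_succ] at hT
  linarith

theorem main2 (η : ℝ) (hη : 0 < η) : ∃ s : ℕ, ∀ n Y Z T : ℕ, 1 ≤ n → 1 ≤ Y → Y ≤ Z → ∀ u v : ℝ,
    ∑ p ∈ n.primeFactors.filter (fun p => Y < p ∧ p ≤ Z), 1 / (p : ℝ) ≤ u →
    ∑ p ∈ n.primeFactors.filter (fun p => Z < p), 1 / (p : ℝ) ≤ v →
    v + η ≤ 1 → η ≤ (1 - u) * (1 - v - η) - u ^ 3 / 2 →
    (Y : ℝ) ^ s * Z ^ 2 * (1 + n.primeFactors.card) < η * T → jac n ≤ T := by
  obtain ⟨s, hs⟩ := core2 η hη
  refine ⟨s, fun n Y Z T hn hY hYZ u v hu hv h1 h2 hT => ?_⟩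
  have hT0 : 0 < T := by
    rcases Nat.eq_zero_or_pos T with h | h
    · rw [h, Nat.cast_zero, mul_zero] at hT
      exact absurd hT (not_lt.2 (by positivity))
    · exact h
  refine jac_le hn hT0 fun c => ?_
  obtain ⟨i, hi, h⟩ := hs n.primeFactors Subtype.val
    (fun i => Nat.prime_of_mem_primeFactors i.2) Subtype.val_injective Y Z T c hY hYZ u v
    (by
      refine le_trans (le_of_eq ?_) hu
      rw [sum_filter, ← sum_coe_sort n.primeFactors, between, sum_filter])
    (by
      refine le_trans (le_of_eq ?_) hv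
      rw [sum_filter, ← sum_coe_sort n.primeFactors]
      have : (upTo (Subtype.val : n.primeFactors → ℕ) Z)ᶜ = univ.filter (fun i => Z < i.1) := by
        ext i
        simp
      rw [this, sum_filter])
    h1 h2 (by simpa using hT)
  exact ⟨i, hi, fun p hp => h ⟨p, hp⟩⟩

end Vale.Agent.P013
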